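import Mathlib

/-!
# P359: the rational limits of the recoupling coefficients
-/

namespace P359

open Finset

/-- Limit of `F2 Q L n`. -/
def F2q (L n : ℕ) : ℚ :=
  (-1) ^ (n + L) / (n.factorial * 2 ^ n * 2 ^ L : ℕ) *
    ∑ i ∈ range (n + 1),
      if n ≤ L + i then
        (-1 : ℚ) ^ i * (n.choose i : ℕ) * (3 ^ (n - i) * n.descFactorial i * L.factorial : ℕ)
          / ((L + i - n).factorial : ℕ)
      else 0

/-- Squared gauge of the channel `(L, l)`. -/
def gauge2 (L l : ℕ) : ℚ :=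
  ((l.factorial * 4 ^ l * 2 ^ L : ℕ) : ℚ) / ((L.factorial * 3 ^ l * 3 ^ L : ℕ) : ℚ)

/-- Rational core of the limit of `F3 Q L n l n' l'` (here `n + l = n' + l'`). -/
def R3 (n l n' l' : ℕ) : ℚ :=
  (-1) ^ (n + l') / (4 ^ l' : ℕ) *
    ∑ i ∈ range (n + 1),
      if n' ≤ l + i then
        (-1 : ℚ) ^ i * (n'.choose i * n.descFactorial i * 4 ^ n : ℕ)
          / (8 ^ i * (l + i - n').factorial : ℕ)
      else 0

/-- Rational core of the limit of `piC Q T L`. -/
def piq (T L : ℕ) : ℚ :=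
  (-1) ^ T * ((T - 1).factorial * 2 ^ L : ℕ) / (2 ^ (T - 1) : ℕ)
    * ((2 * ((T - L : ℕ) : ℚ) - L) / (2 * (T - L).factorial : ℕ))

end P359
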