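import Vale.Agent.P359.Decay.Bridge

/-!
# P359: uniform geometric decay of the recoupling coefficients
-/

noncomputable section

namespace P359

open Finset

theorem F2_decay (n : ℕ) :
    ∃ C : ℝ, ∃ Q0 : ℕ, ∀ Q, Q0 ≤ Q → ∀ L, |F2 Q L n| ≤ C * (4 / 5) ^ L := by
  obtain ⟨C, hC⟩ := Vale.Agent.P359.Decay.scal_decay n n
  exact ⟨C, 8 * (2 * n + 1), fun Q hQ L =>
    hC Q (Q + 2 * n - 2) L L (by omega) (by omega) (by omega) rfl⟩

theorem F3_decay (L n n' : ℕ) :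
    ∃ C : ℝ, ∃ Q0 : ℕ, ∀ Q, Q0 ≤ Q → ∀ l l', n + l = n' + l' →
      |F3 Q L n l n' l'| ≤ C * (4 / 5) ^ l := by
  obtain ⟨C, hC⟩ := Vale.Agent.P359.Decay.scal_decay n n'
  exact ⟨C, 8 * (n + n' + 1) + 2 * L + 2, fun Q hQ l l' h =>
    hC Q (2 * Q + 2 * n - 2 - 2 * L) l l' (by omega) (by omega) (by omega) (by omega)⟩

end P359
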