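import Vale.Agent.P359.Rep.Contr
import Vale.Agent.P359.Lim.Defs
import Vale.Agent.P359.Lim.Tendsto.Scal

/-!
# P359: the limits of the recoupling coefficients
-/

noncomputable section

namespace P359

open Finset Filter Topology

lemma tendsto_id_ratio : Tendsto (fun Q : ℕ => (Q : ℝ) / Q) atTop (𝓝 1) := by
  refine tendsto_const_nhds.congr' ?_
  filter_upwards [eventually_gt_atTop 0] with Q hQ
  rw [div_self (by exact_mod_cast hQ.ne')]

lemma tendsto_two_ratio : Tendsto (fun Q : ℕ => ((2 * Q : ℕ) : ℝ) / Q) atTop (𝓝 2) := by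
  refine tendsto_const_nhds.congr' ?_
  filter_upwards [eventually_gt_atTop 0] with Q hQ
  have : (Q : ℝ) ≠ 0 := by exact_mod_cast hQ.ne'
  push_cast
  field_simp

lemma tendsto_ratio_shift {f : ℕ → ℕ} {α : ℝ} (hf : Tendsto (fun Q => (f Q : ℝ) / Q) atTop (𝓝 α))
    (m : ℕ) : Tendsto (fun Q => ((f Q + m : ℕ) : ℝ) / Q) atTop (𝓝 α) := by
  have h := hf.add (tendsto_const_div_nat (m : ℝ))
  rw [add_zero] at h
  refine h.congr fun Q => ?_
  push_cast
  rw [add_div]

theorem F2_tendsto (L n : ℕ) :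
    Tendsto (fun Q => F2 Q L n) atTop (𝓝 (F2q L n : ℝ)) := by
  have hs := tendsto_ratio_sub one_pos (tendsto_ratio_shift tendsto_id_ratio (2 * n)) 2
  have h := tendsto_scal one_pos one_pos one_pos hs tendsto_id_ratio tendsto_id_ratio
    (n := n) (n' := n) (l := L) (l' := L) rfl
  refine (show _ = (F2q L n : ℝ) from ?_) ▸ h
  have e : scalPre 1 1 1 n n L L = ((L.factorial : ℝ) / (2 ^ n * 2 ^ L)) ^ 2 := by
    unfold scalPre
    norm_num [pow_add]
    field_simp
  rw [e, Real.sqrt_sq (by positivity), scalSum, F2q]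
  push_cast
  rw [mul_sum, mul_sum]
  refine sum_congr rfl fun i hi => ?_
  rw [mem_range] at hi
  by_cases hl : n ≤ L + i
  · rw [if_pos hl, if_pos hl, ← Nat.factorial_mul_descFactorial (show i ≤ n by omega)]
    push_cast
    norm_num
    field_simp
    rw [mul_div_cancel_right₀]
    exact_mod_cast (Nat.descFactorial_pos.2 (by omega : i ≤ n)).ne'
  · rw [if_neg hl, if_neg hl]
    simp

theorem F3_tendsto {L n l L' n' l' : ℕ} (hL : L + n' = L' + n) (hl : n + l = n' + l') :
    Tendsto (fun Q => F3 Q L n l n' l') atTop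
      (𝓝 (Real.sqrt (gauge2 L l : ℝ) * Real.sqrt (gauge2 L' l' : ℝ)
        * Real.sqrt ((L.factorial * L'.factorial : ℕ) / (n.factorial * n'.factorial : ℕ) : ℝ)
        * (3 / 2 : ℝ) ^ ((L : ℤ) - n) * (R3 n l n' l' : ℝ))) := by
  have hs := tendsto_ratio_sub two_pos
    (tendsto_ratio_sub two_pos (tendsto_ratio_shift tendsto_two_ratio (2 * n)) 2) (2 * L)
  have h := tendsto_scal two_pos one_pos one_pos hs tendsto_id_ratio tendsto_id_ratio hl
  refine (show _ = Real.sqrt (gauge2 L l : ℝ) * Real.sqrt (gauge2 L' l' : ℝ)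
        * Real.sqrt ((L.factorial * L'.factorial : ℕ) / (n.factorial * n'.factorial : ℕ) : ℝ)
        * (3 / 2 : ℝ) ^ ((L : ℤ) - n) * (R3 n l n' l' : ℝ) from ?_) ▸ h
  have hS : scalSum 2 1 1 n n' l = 8 ^ n / (n.factorial : ℝ) * ∑ i ∈ range (n + 1),
      (if n' ≤ l + i then
        (-1 : ℝ) ^ i * ((n'.choose i : ℝ) * (n.descFactorial i : ℝ))
          / (8 ^ i * ((l + i - n').factorial : ℝ))
      else 0) := by
    rw [scalSum, mul_sum]
    refine sum_congr rfl fun i hi => ?_
    rw [mem_range] at hi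
    by_cases hc : n' ≤ l + i
    · rw [if_pos hc, if_pos hc, ← Nat.factorial_mul_descFactorial (show i ≤ n by omega),
        show (2 : ℝ) * (2 + 1) / 1 + 2 = 8 by norm_num, pow_sub₀ (8 : ℝ) (by norm_num) (by omega)]
      push_cast
      field_simp
      norm_num
      rw [mul_div_cancel_right₀]
      exact_mod_cast (Nat.descFactorial_pos.2 (by omega : i ≤ n)).ne'
    · rw [if_neg hc, if_neg hc, mul_zero]
  have hR : (R3 n l n' l' : ℝ) = (-1 : ℝ) ^ (n + l') * (4 ^ n / 4 ^ l') * ∑ i ∈ range (n + 1),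
      (if n' ≤ l + i then
        (-1 : ℝ) ^ i * ((n'.choose i : ℝ) * (n.descFactorial i : ℝ))
          / (8 ^ i * ((l + i - n').factorial : ℝ))
      else 0) := by
    rw [R3]
    push_cast
    rw [mul_sum, mul_sum]
    refine sum_congr rfl fun i _ => ?_
    by_cases hc : n' ≤ l + i
    · rw [if_pos hc, if_pos hc]; push_cast; field_simp
    · rw [if_neg hc, if_neg hc]; simp
  rw [hS, hR]
  have key : Real.sqrt (scalPre 2 1 1 n n' l l') * (8 ^ n / (n.factorial : ℝ))
      = Real.sqrt (gauge2 L l : ℝ) * Real.sqrt (gauge2 L' l' : ℝ)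
        * Real.sqrt ((L.factorial * L'.factorial : ℕ) / (n.factorial * n'.factorial : ℕ) : ℝ)
        * (3 / 2 : ℝ) ^ ((L : ℤ) - n) * (4 ^ n / 4 ^ l') := by
    rw [zpow_sub₀ (by norm_num : (3 / 2 : ℝ) ≠ 0), zpow_natCast, zpow_natCast]
    refine (sq_eq_sq₀ (by positivity) (by positivity)).1 ?_
    rw [mul_pow, mul_pow, mul_pow, mul_pow, mul_pow, Real.sq_sqrt (by unfold scalPre; positivity),
      Real.sq_sqrt (by unfold gauge2; positivity), Real.sq_sqrt (by unfold gauge2; positivity),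
      Real.sq_sqrt (by positivity)]
    unfold scalPre gauge2
    push_cast
    norm_num only [one_pow, mul_one]
    rw [show (8 : ℝ) = 2 ^ 3 by norm_num, show (4 : ℝ) = 2 ^ 2 by norm_num]
    simp only [div_pow, ← pow_mul]
    field_simp
    have e2 : n' + 3 * n * 2 + L * 2 + 2 * l' * 2
        = 2 * l' * 2 + n + L + L' + n * 2 + 2 * n * 2 := by omega
    have e3 : L + l' + L' + n * 2 = n + (n' + l') + L * 2 := by omega
    calc (2 : ℝ) ^ n' * 2 ^ (3 * n * 2) * 3 ^ L * 3 ^ l' * 3 ^ L' * 2 ^ (L * 2) * 3 ^ (n * 2)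
          * 2 ^ (2 * l' * 2)
        = 2 ^ (n' + 3 * n * 2 + L * 2 + 2 * l' * 2) * 3 ^ (L + l' + L' + n * 2) := by
          simp only [pow_add]; ring
      _ = 2 ^ (2 * l' * 2 + n + L + L' + n * 2 + 2 * n * 2) * 3 ^ (n + (n' + l') + L * 2) := by
          rw [e2, e3]
      _ = _ := by rw [← pow_mul]; simp only [pow_add]; ring
  calc _ = (-1 : ℝ) ^ (n + l') * (Real.sqrt (scalPre 2 1 1 n n' l l') * (8 ^ n / (n.factorial : ℝ)))
        * _ := by rw [mul_assoc ((-1 : ℝ) ^ (n + l')), mul_assoc, mul_assoc]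
    _ = _ := by rw [key]; ring

theorem piC_tendsto {T L : ℕ} (hT : 1 ≤ T) (hL : L ≤ T) :
    Tendsto (fun Q => piC Q T L) atTop
      (𝓝 (Real.sqrt ((gauge2 L (T - L) : ℝ) / (2 * (T - 1).factorial : ℕ)) * (piq T L : ℝ))) := by
  have hb := tendsto_ratio_sub two_pos tendsto_two_ratio 2
  have h := (tendsto_scal one_pos two_pos one_pos tendsto_id_ratio hb tendsto_id_ratio
    (n := L) (n' := 1) (l := T - L) (l' := T - 1) (by omega)).const_mul ((-1 : ℝ) ^ (L + 1))
  refine (show _ = Real.sqrt ((gauge2 L (T - L) : ℝ) / (2 * (T - 1).factorial : ℕ)) * (piq T L : ℝ)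
    from ?_) ▸ h
  obtain ⟨l, rfl⟩ := Nat.exists_eq_add_of_le hL
  rw [Nat.add_sub_cancel_left]
  have hS : scalSum 1 2 1 L 1 l
      = 2 ^ L * (2 * (l : ℝ) - L) / (2 * (L.factorial : ℝ) * (l.factorial : ℝ)) := by
    rw [scalSum, ← sum_subset (s₁ := range (min L 1 + 1)) (range_mono (by omega : min L 1 + 1 ≤ L + 1))]
    swap
    · intro i hi hi'
      rw [mem_range] at hi hi'
      simp [Nat.choose_eq_zero_of_lt (by omega : 1 < i)]
    rcases Nat.eq_zero_or_pos L with rfl | hLp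
    · obtain ⟨m, rfl⟩ := Nat.exists_eq_add_of_le' (show 1 ≤ l by omega)
      simp [Nat.factorial_succ]
      field_simp
    · obtain ⟨L, rfl⟩ := Nat.exists_eq_add_of_le' hLp
      rw [show min (L + 1) 1 + 1 = 2 by omega]
      simp only [sum_range_succ, range_zero, sum_empty, zero_add]
      rcases Nat.eq_zero_or_pos l with rfl | hlp
      · norm_num [Nat.factorial_succ, pow_succ]
        field_simp
        ring
      · obtain ⟨m, rfl⟩ := Nat.exists_eq_add_of_le' hlp
        norm_num [Nat.factorial_succ, pow_succ]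
        field_simp
        ring
  have sgn : (-1 : ℝ) ^ (L + 1) * (-1 : ℝ) ^ (L + (L + l - 1)) = (-1 : ℝ) ^ (L + l) := by
    rw [← pow_add, show L + 1 + (L + (L + l - 1)) = L + l + 2 * L by omega, pow_add, pow_mul,
      neg_one_sq, one_pow, mul_one]
  have key : Real.sqrt (scalPre 1 2 1 L 1 l (L + l - 1))
      = Real.sqrt ((gauge2 L l : ℝ) / (2 * (L + l - 1).factorial : ℕ))
        * ((L.factorial : ℝ) * ((L + l - 1).factorial : ℝ) / (2 ^ (L + l - 1))) := by
    refine (sq_eq_sq₀ (by positivity) (by positivity)).1 ?_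
    rw [mul_pow, Real.sq_sqrt (by unfold scalPre; positivity),
      Real.sq_sqrt (by unfold gauge2; positivity)]
    obtain ⟨T, hT'⟩ := Nat.exists_eq_add_of_le' hT
    have eT : L + l - 1 = T := by omega
    unfold scalPre gauge2
    rw [eT]
    push_cast
    norm_num only [one_pow, mul_one]
    rw [show (4 : ℝ) = 2 ^ 2 by norm_num]
    simp only [div_pow, ← pow_mul]
    field_simp
    ring
  rw [piq, Nat.add_sub_cancel_left]
  push_cast
  rw [hS, key, ← sgn]
  push_cast
  field_simp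

end P359

end
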